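import Mathlib

namespace Vale.Agent.Lib.P028

/-- The set `W_γ(ψ)`: the real numbers `x` such that `|q x - a - γ| < ψ q` for infinitely many
positive integers `q` (with an integer `a` depending on `q`), that is, `‖q x - γ‖ < ψ q`
infinitely often. -/
def WSet (γ : ℝ) (ψ : ℕ → ℝ) : Set ℝ :=
  {x : ℝ | ∃ᶠ q : ℕ in Filter.atTop, ∃ a : ℤ, |(q : ℝ) * x - a - γ| < ψ q}

/-- The weak inhomogeneous Duffin-Schaeffer statement for the shift `γ`: for every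
`ψ : ℕ → [0, ∞)` with `∑ φ(q) ψ(q) / q = ∞`, almost every real `x` lies in `W_γ(ψ)`. -/
def WeakIDS (γ : ℝ) : Prop :=
  ∀ ψ : ℕ → ℝ, (∀ q, 0 ≤ ψ q) →
    ¬ Summable (fun q : ℕ => (Nat.totient q : ℝ) / (q : ℝ) * ψ q) →
    ∀ᵐ x ∂(MeasureTheory.volume : MeasureTheory.Measure ℝ), x ∈ WSet γ ψ

end Vale.Agent.Lib.P028
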