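import Vale.Agent.Lib.P028.Defs

namespace Vale.Agent.Lib.P028

open MeasureTheory

theorem quasi_mul (c : ℝ) (hc : c ≠ 0) :
    Measure.QuasiMeasurePreserving (fun y : ℝ => c * y) volume volume := by
  refine ⟨measurable_const_mul c, ?_⟩
  rw [Real.map_volume_mul_left hc]
  exact Measure.smul_absolutelyContinuous

theorem weakIDS_int_affine (γ : ℝ) (n m : ℤ) (hn : n ≠ 0) (h : WeakIDS γ) :
    WeakIDS ((n : ℝ) * γ + (m : ℝ)) := by
  intro ψ hψ hdiv
  have hn' : (n : ℝ) ≠ 0 := by exact_mod_cast hn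
  have habs : (0 : ℝ) < |(n : ℝ)| := abs_pos.mpr hn'
  have h1 := h (fun q => ψ q / |(n : ℝ)|) (fun q => div_nonneg (hψ q) habs.le) (by
    intro hs
    apply hdiv
    have := hs.mul_right |(n : ℝ)|
    refine this.congr ?_
    intro q
    field_simp)
  have h2 := (quasi_mul ((n : ℝ)⁻¹) (inv_ne_zero hn')).ae h1
  filter_upwards [h2] with y hy
  simp only [WSet, Set.mem_ofPred_eq] at hy ⊢
  refine hy.mono ?_
  rintro q ⟨a, ha⟩
  refine ⟨n * a - m, ?_⟩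
  have e : (q : ℝ) * y - ((n * a - m : ℤ) : ℝ) - ((n : ℝ) * γ + (m : ℝ))
      = (n : ℝ) * ((q : ℝ) * ((n : ℝ)⁻¹ * y) - (a : ℝ) - γ) := by
    push_cast
    field_simp
    ring
  rw [e, abs_mul]
  calc |(n : ℝ)| * |(q : ℝ) * ((n : ℝ)⁻¹ * y) - (a : ℝ) - γ|
      < |(n : ℝ)| * (ψ q / |(n : ℝ)|) := mul_lt_mul_of_pos_left ha habs
    _ = ψ q := by field_simp

end Vale.Agent.Lib.P028
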